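import Vale.Agent.P339.R2.H375.CN1
import Vale.Agent.P339.R2.H197.TP

/-! P339: MODULE CN: the average of the square over the lines. -/

namespace Vale.Agent.P339.R2.H744

open Finset Vale.Agent.Lib.PCP Vale.Agent.Lib.PCP.HA Vale.Agent.P339.H283 Vale.Agent.P339.H937
  Vale.Agent.P339.R2.H375

variable {l k nA : ℕ} {R : (Fin k × Fin nA → K l) → K l × ZMod 2} {j : Fin k}
  {w : Fin nA → ZMod 2} {θ0 θ1 : K l}

lemma th_zero : th θ0 θ1 0 = θ0 := if_pos rfl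

lemma th_one : th θ0 θ1 1 = θ1 := if_neg (by decide)

/-! ### The shift -/

lemma evl_shift {t : Fin k × Fin nA → ZMod 2} {β : ZMod 2} {a0 : Fin nA} (ht : t (j, a0) ≠ 0)
    (hw : w a0 ≠ β) : evl t (dis j w (Pi.single a0 1) θ0 θ1) = th θ0 θ1 (β + 1) := by
  have ht1 : t (j, a0) = 1 := bit_ne_zero ht
  have hcc : ∀ β' : ZMod 2, cc t j w β' (Pi.single a0 1) = if w a0 = β' then 1 else 0 := by
    intro β'
    unfold cc
    rw [Finset.sum_eq_single a0]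
    · rw [Pi.single_eq_same, ht1, mul_one]
    · intro b _ hb
      rw [Pi.single_eq_of_ne hb, mul_zero, ite_self]
    · intro h
      exact absurd (Finset.mem_univ _) h
  have h01 : ¬ (0 : ZMod 2) = 1 := by decide
  have h10 : ¬ (1 : ZMod 2) = 0 := by decide
  have h11 : (1 : ZMod 2) + 1 = 0 := by decide
  rw [evl_dis, hcc, hcc]
  rcases bit_cases β with rfl | rfl
  · have hw1 : w a0 = 1 := bit_ne_zero hw
    rw [hw1, if_neg h10, if_pos rfl, zero_smul, one_smul, zero_add, zero_add, th_one]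
  · have hw1 : w a0 = 0 := (bit_cases (w a0)).resolve_right hw
    rw [hw1, if_pos rfl, if_neg h01, zero_smul, one_smul, add_zero, h11, th_zero]

/-- The other class is the shift of the first one. -/
lemma fe_oth (hR : ∀ u M, R (M + dis j w u θ0 θ1) = R M) {β : ZMod 2}
    {h : (Fin k × Fin nA → ZMod 2) × K l} {a0 : Fin nA} (ht : h.1 (j, a0) ≠ 0)
    (hw : w a0 ≠ β) (M : Fin k × Fin nA → K l) :
    fe R θ0 θ1 β (oth θ0 θ1 β h) M =
      fe R θ0 θ1 β h (M + dis j w (Pi.single a0 1) θ0 θ1) := by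
  have haff : aff h (M + dis j w (Pi.single a0 1) θ0 θ1) = aff (oth θ0 θ1 β h) M := by
    unfold oth aff
    dsimp only
    rw [evl_add, evl_shift ht hw]
    abel
  unfold fe
  refine ind_congr ?_
  rw [hR, haff]

/-- The difference of the two classes has mean zero. -/
lemma avg_gd (hR : ∀ u M, R (M + dis j w u θ0 θ1) = R M) {β : ZMod 2}
    {h : (Fin k × Fin nA → ZMod 2) × K l} (hcon : ¬ Con j w β h.1) :
    avg (gd R θ0 θ1 β h) = 0 := by
  unfold Vale.Agent.P339.R2.H375.Con at hcon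
  push Not at hcon
  obtain ⟨a0, ht, hw⟩ := hcon
  have e1 : ∀ M, gd R θ0 θ1 β h M = fe R θ0 θ1 β h M -
      fe R θ0 θ1 β h (M + dis j w (Pi.single a0 1) θ0 θ1) := by
    intro M
    unfold gd
    rw [fe_oth hR ht hw M]
  rw [avg_congr e1, avg_sub, avg_add_right, sub_self]

lemma gd_sq (h0 : θ0 ≠ 0) (h1 : θ1 ≠ 0) (h01 : θ0 ≠ θ1) {β : ZMod 2}
    {h : (Fin k × Fin nA → ZMod 2) × K l} (hcon : ¬ Con j w β h.1)
    (M : Fin k × Fin nA → K l) :
    gd R θ0 θ1 β h M ^ 2 = fc R j w θ0 θ1 β h M := by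
  have e1 := fe_oth_add (R := R) h0 h1 h01 hcon M
  have e2 : fc R j w θ0 θ1 β h M ≤ 1 := ind_le_one _
  have h01' : ∀ g, fe R θ0 θ1 β g M = 0 ∨ fe R θ0 θ1 β g M = 1 := by
    intro g
    unfold fe ind
    split_ifs <;> simp
  rw [e1] at e2
  rw [e1]
  unfold gd
  rcases h01' h with a | a <;> rcases h01' (oth θ0 θ1 β h) with b | b
  · rw [a, b]; norm_num
  · rw [a, b]; norm_num
  · rw [a, b]; norm_num
  · rw [a, b] at e2; norm_num at e2

/-! ### The averages -/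

/-- The bound for a function of the list which is compatible with the side. -/
lemma avg_con (β : ZMod 2) (h : (Fin k × Fin nA → ZMod 2) × K l) :
    (avg fun y : Fin k × Fin nA → ZMod 2 => avg fun M : Fin k × Fin nA → K l =>
      al (fc R j w θ0 θ1 β h) M y ^ 2) ≤
      1 / 2 * mc R j w θ0 θ1 β h + 1 / 2 * mc R j w θ0 θ1 β h ^ 2 :=
  line_sq_le (fc R j w θ0 θ1 β h) (fun _ => ind_sq _)

/-- The average over a line is at most one. -/
lemma avg_fc_sq_le (β : ZMod 2) (h : (Fin k × Fin nA → ZMod 2) × K l) :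
    (avg fun y : Fin k × Fin nA → ZMod 2 => avg fun M : Fin k × Fin nA → K l =>
      al (fc R j w θ0 θ1 β h) M y ^ 2) ≤ mc R j w θ0 θ1 β h := by
  refine avg_le_of_le (avg_nonneg fun M => ind_nonneg _) fun y => ?_
  have e1 : ∀ M : Fin k × Fin nA → K l, al (fc R j w θ0 θ1 β h) M y ^ 2 ≤
      avg fun φ : K l => fc R j w θ0 θ1 β h (M + tns y φ) := by
    intro M
    unfold al
    have a0 : 0 ≤ avg fun φ : K l => fc R j w θ0 θ1 β h (M + tns y φ) :=
      avg_nonneg fun φ => ind_nonneg _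
    have a1 : (avg fun φ : K l => fc R j w θ0 θ1 β h (M + tns y φ)) ≤ 1 :=
      avg_le_of_le zero_le_one fun φ => ind_le_one _
    nlinarith
  refine (avg_mono e1).trans ?_
  rw [avg_comm]
  refine avg_le_of_le (avg_nonneg fun M => ind_nonneg _) fun φ => ?_
  rw [avg_add_right (tns y φ) (fc R j w θ0 θ1 β h)]
  rfl

/-- The bound for a function of the list which is not compatible with the side. -/
lemma avg_non (h0 : θ0 ≠ 0) (h1 : θ1 ≠ 0) (h01 : θ0 ≠ θ1)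
    (hR : ∀ u M, R (M + dis j w u θ0 θ1) = R M) {β : ZMod 2}
    {h : (Fin k × Fin nA → ZMod 2) × K l} (hcon : ¬ Con j w β h.1) :
    (avg fun y : Fin k × Fin nA → ZMod 2 => avg fun M : Fin k × Fin nA → K l =>
      ((1 / 4 + Real.sqrt (1 / 2) / 4) * al (fc R j w θ0 θ1 β h) M y ^ 2 +
        (1 / 4 + Real.sqrt (1 / 2) / 2) * al (gd R θ0 θ1 β h) M y ^ 2)) ≤
      (1 / 4 + Real.sqrt (1 / 2) / 2) * mc R j w θ0 θ1 β h +
        1 / 8 * mc R j w θ0 θ1 β h ^ 2 := by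
  simp only [avg_add, avg_const_mul]
  have hκ0 : 0 ≤ Real.sqrt (1 / 2) := Real.sqrt_nonneg _
  set κ : ℝ := Real.sqrt (1 / 2) with hκ
  have a1 := avg_con (R := R) (j := j) (w := w) (θ0 := θ0) (θ1 := θ1) β h
  have a2 := avg_fc_sq_le (R := R) (j := j) (w := w) (θ0 := θ0) (θ1 := θ1) β h
  have a3 : (avg fun y : Fin k × Fin nA → ZMod 2 => avg fun M : Fin k × Fin nA → K l =>
      al (gd R θ0 θ1 β h) M y ^ 2) ≤ 1 / 2 * avg fun M => gd R θ0 θ1 β h M ^ 2 :=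
    H197.line_sq_zero (gd R θ0 θ1 β h) (avg_gd hR hcon)
  rw [avg_congr (gd_sq h0 h1 h01 hcon)] at a3
  have a5 : (avg fun M => fc R j w θ0 θ1 β h M) = mc R j w θ0 θ1 β h := rfl
  rw [a5] at a3
  set X : ℝ := avg fun y : Fin k × Fin nA → ZMod 2 => avg fun M : Fin k × Fin nA → K l =>
      al (fc R j w θ0 θ1 β h) M y ^ 2 with hX
  set Y : ℝ := avg fun y : Fin k × Fin nA → ZMod 2 => avg fun M : Fin k × Fin nA → K l =>
      al (gd R θ0 θ1 β h) M y ^ 2 with hY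
  set m : ℝ := mc R j w θ0 θ1 β h with hm
  have b1 : κ / 4 * X ≤ κ / 4 * m := mul_le_mul_of_nonneg_left a2 (by linarith)
  have b2 : (1 / 4 + κ / 2) * Y ≤ (1 / 4 + κ / 2) * (1 / 2 * m) :=
    mul_le_mul_of_nonneg_left a3 (by linarith)
  nlinarith [a1, b1, b2]

/-! ### The uncovered points -/

lemma rs_nonneg (H : Finset ((Fin k × Fin nA → ZMod 2) × K l)) (β : ZMod 2)
    (M : Fin k × Fin nA → K l) : 0 ≤ rs R j w θ0 θ1 H β M := ind_nonneg _

lemma rs_le_one (H : Finset ((Fin k × Fin nA → ZMod 2) × K l)) (β : ZMod 2)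
    (M : Fin k × Fin nA → K l) : rs R j w θ0 θ1 H β M ≤ 1 := ind_le_one _

lemma rs_sq (H : Finset ((Fin k × Fin nA → ZMod 2) × K l)) (β : ZMod 2)
    (M : Fin k × Fin nA → K l) : rs R j w θ0 θ1 H β M ^ 2 = rs R j w θ0 θ1 H β M := ind_sq _

lemma omg_rs_le {H : ZMod 2 → Finset ((Fin k × Fin nA → ZMod 2) × K l)} {c ρ : ℝ}
    (hcl : 1 / 2 ^ l ≤ c) (hL : IsL R j w θ0 θ1 H c) (hρ0 : 0 ≤ ρ)
    (hρ : c ^ 2 + 14 / 2 ^ l ≤ ρ ^ 4) (β : ZMod 2) :
    omg (rs R j w θ0 θ1 (H β) β) (fun M => (R M).1) ≤ ρ := by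
  have h1 := rank_one (u := rs R j w θ0 θ1 (H β) β) (G := fun M => (R M).1)
    (rs_nonneg _ _) (rs_le_one _ _) hcl (fun t g => hL.2.2 β t g)
  have h2 : omg (rs R j w θ0 θ1 (H β) β) (fun M => (R M).1) ^ 4 ≤ ρ ^ 4 := h1.trans hρ
  exact le_of_pow_le_pow_left₀ (by norm_num) hρ0 h2

/-- **The average of the square.** -/
theorem avg_lineZ2_le {R : (Fin k × Fin nA → K l) → K l × ZMod 2} {j : Fin k}
    {w : Fin nA → ZMod 2} {θ0 θ1 : K l} (h0 : θ0 ≠ 0) (h1 : θ1 ≠ 0) (h01 : θ0 ≠ θ1)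
    (hR : ∀ u M, R (M + dis j w u θ0 θ1) = R M)
    {H : ZMod 2 → Finset ((Fin k × Fin nA → ZMod 2) × K l)} {c ρ : ℝ}
    (hcl : 1 / 2 ^ l ≤ c) (hL : IsL R j w θ0 θ1 H c) (hρ0 : 0 ≤ ρ)
    (hρ : c ^ 2 + 14 / 2 ^ l ≤ ρ ^ 4) :
    (avg fun y : Fin k × Fin nA → ZMod 2 => avg fun M : Fin k × Fin nA → K l =>
      lineZ2 R j w θ0 θ1 H M y) ≤
    ∑ β : ZMod 2, (((1 / 2 + 4 / 2 ^ l) * avg (rs R j w θ0 θ1 (H β) β) + ρ) +
      (∑ h ∈ (H β).filter (fun h => Con j w β h.1),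
        (1 / 2 * mc R j w θ0 θ1 β h + 1 / 2 * mc R j w θ0 θ1 β h ^ 2)) +
      ∑ h ∈ (H β).filter (fun h => ¬ Con j w β h.1),
        ((1 / 4 + Real.sqrt (1 / 2) / 2) * mc R j w θ0 θ1 β h +
          1 / 8 * mc R j w θ0 θ1 β h ^ 2)) := by
  unfold lineZ2
  simp only [avg_sum, avg_add]
  refine Finset.sum_le_sum fun β _ => add_le_add (add_le_add ?_ ?_) ?_
  · have a1 := H197.two_point2 (th_ne h0 h1 β) (rs R j w θ0 θ1 (H β) β) (fun M => (R M).1)
    rw [avg_congr (rs_sq (H β) β)] at a1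
    simp only [avg_sum] at a1
    have a2 := omg_rs_le hcl hL hρ0 hρ β
    exact a1.trans (by linarith)
  · exact Finset.sum_le_sum fun h _ => avg_con β h
  · refine Finset.sum_le_sum fun h hh => ?_
    have a1 := avg_non h0 h1 h01 hR (Finset.mem_filter.1 hh).2
    simp only [avg_add] at a1
    exact a1

end Vale.Agent.P339.R2.H744
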